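import Vale.Agent.P308.Final

namespace Vale.Agent.Results.P308.QuasiPoly

theorem result : ∃ A, Vale.Agent.P308.IsQPRAS A := Vale.Agent.P308.exists_qpras

end Vale.Agent.Results.P308.QuasiPoly
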